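import Mathlib

namespace Vale.Agent.Lib.P192

open Function

/-- The homomorphism from a free group to the integers with prescribed integer weights
on the generators. -/
noncomputable def wt {n : ℕ} (t : Fin n → ℤ) : FreeGroup (Fin n) →* Multiplicative ℤ :=
  FreeGroup.lift (fun j => Multiplicative.ofAdd (t j))

lemma wt_of {n : ℕ} (t : Fin n → ℤ) (j : Fin n) :
    wt t (FreeGroup.of j) = Multiplicative.ofAdd (t j) := by
  simp [wt]

lemma wt_add {n : ℕ} (s t : Fin n → ℤ) (w : FreeGroup (Fin n)) :
    wt (s + t) w = wt s w * wt t w := by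
  have h : wt (s + t) = wt s * wt t := by
    apply FreeGroup.ext_hom
    intro a
    simp [wt_of, ofAdd_add]
  rw [h]
  rfl

/-- Evaluation of all relators under the weight homomorphism, as an additive map. -/
noncomputable def evalRels {n m : ℕ} (r : Fin m → FreeGroup (Fin n)) :
    (Fin n → ℤ) →+ (Fin m → ℤ) where
  toFun t := fun i => Multiplicative.toAdd (wt t (r i))
  map_zero' := by
    funext i
    have h : wt (0 : Fin n → ℤ) = 1 := by
      apply FreeGroup.ext_hom
      intro a
      simp [wt_of]
    simp [h]
  map_add' s t := by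
    funext i
    simp [wt_add]

theorem exists_weight {n m : ℕ} (r : Fin m → FreeGroup (Fin n)) (hlt : m < n) :
    ∃ t : Fin n → ℤ, t ≠ 0 ∧ ∀ i, wt t (r i) = 1 := by
  by_contra hcon
  push Not at hcon
  have hinj : Injective (evalRels r).toIntLinearMap := by
    rw [← LinearMap.ker_eq_bot, Submodule.eq_bot_iff]
    intro t ht
    by_contra hne
    obtain ⟨i, hi⟩ := hcon t hne
    apply hi
    have h2 : (evalRels r) t = 0 := ht
    have h3 := congrFun h2 i
    simpa [evalRels] using h3
  have := le_of_fin_injective ℤ (evalRels r).toIntLinearMap hinj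
  omega

theorem exists_not_isOfFinOrder {n : ℕ} (rels : Set (FreeGroup (Fin n))) (hfin : rels.Finite)
    (hlt : rels.ncard < n) : ∃ g : PresentedGroup rels, ¬ IsOfFinOrder g := by
  classical
  have : Fintype rels := hfin.fintype
  set m := Fintype.card rels with hm
  have hmn : m < n := by
    rw [hm, ← Nat.card_eq_fintype_card]
    exact hlt
  let e : Fin m ≃ rels := (Fintype.equivFin rels).symm
  obtain ⟨t, ht0, ht⟩ := exists_weight (fun i => ((e i : rels) : FreeGroup (Fin n))) hmn
  have hrel : ∀ r ∈ rels, FreeGroup.lift (fun j => Multiplicative.ofAdd (t j)) r = 1 := by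
    intro r hr
    have := ht (e.symm ⟨r, hr⟩)
    simpa [wt] using this
  let φ : PresentedGroup rels →* Multiplicative ℤ := PresentedGroup.toGroup hrel
  obtain ⟨j, hj⟩ : ∃ j, t j ≠ 0 := by
    by_contra h
    push Not at h
    exact ht0 (funext h)
  refine ⟨PresentedGroup.of j, fun hfo => ?_⟩
  have h1 : IsOfFinOrder (φ (PresentedGroup.of j)) := φ.isOfFinOrder hfo
  have h2 : φ (PresentedGroup.of j) = Multiplicative.ofAdd (t j) := by
    simp [φ]
  rw [h2, isOfFinOrder_iff_pow_eq_one] at h1
  obtain ⟨k, hk, hk1⟩ := h1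
  have h3 : k • t j = 0 := by
    have := congrArg Multiplicative.toAdd hk1
    simpa using this
  rcases smul_eq_zero.mp h3 with h | h
  · omega
  · exact hj h

end Vale.Agent.Lib.P192
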