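import Mathlib

namespace Vale.Agent.Lib.P192

open Function

/-- P. Hall: an extension of a finitely presented group by a finitely presented group is
finitely presented. -/
theorem isFinitelyPresented_of_extension {G Q : Type*} [Group G] [Group Q] (f : G →* Q)
    (hf : Surjective f) (hN : Group.IsFinitelyPresented f.ker)
    (hQ : Group.IsFinitelyPresented Q) : Group.IsFinitelyPresented G := by
  classical
  obtain ⟨a, α, hα, Ra, hRafin, hRa⟩ := hN.out
  obtain ⟨b, β, hβ, Rb, hRbfin, hRb⟩ := hQ.out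
  choose ylift hylift using fun j : Fin b => hf (β (FreeGroup.of j))
  let gen : Fin a ⊕ Fin b → G := Sum.elim (fun i => (α (FreeGroup.of i) : G)) ylift
  let γ : FreeGroup (Fin a ⊕ Fin b) →* G := FreeGroup.lift gen
  let ιa : FreeGroup (Fin a) →* FreeGroup (Fin a ⊕ Fin b) := FreeGroup.map Sum.inl
  let ιb : FreeGroup (Fin b) →* FreeGroup (Fin a ⊕ Fin b) := FreeGroup.map Sum.inr
  have hγa : ∀ u, γ (ιa u) = (α u : G) := by
    intro u
    have h : γ.comp ιa = (f.ker.subtype).comp α := by
      apply FreeGroup.ext_hom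
      intro i
      simp [γ, ιa, gen]
    exact DFunLike.congr_fun h u
  have hγb : ∀ u, f (γ (ιb u)) = β u := by
    intro u
    have h : (f.comp γ).comp ιb = β := by
      apply FreeGroup.ext_hom
      intro j
      simp [γ, ιb, gen, hylift]
    exact DFunLike.congr_fun h u
  let αinv : f.ker → FreeGroup (Fin a) := Function.surjInv hα
  have hαinv : ∀ x, α (αinv x) = x := Function.surjInv_eq hα
  have hRaker : ∀ r ∈ Ra, α r = 1 := by
    intro r hr
    have : r ∈ α.ker := by rw [← hRa]; exact Subgroup.subset_normalClosure hr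
    exact MonoidHom.mem_ker.1 this
  have hRbker : ∀ r ∈ Rb, β r = 1 := by
    intro r hr
    have : r ∈ β.ker := by rw [← hRb]; exact Subgroup.subset_normalClosure hr
    exact MonoidHom.mem_ker.1 this
  -- the three families of relators
  let R1 : Set (FreeGroup (Fin a ⊕ Fin b)) := ιa '' Ra
  let wr : FreeGroup (Fin b) → FreeGroup (Fin a) := fun r =>
    if h : γ (ιb r) ∈ f.ker then αinv ⟨γ (ιb r), h⟩ else 1
  let R2 : Set (FreeGroup (Fin a ⊕ Fin b)) := (fun r => ιb r * (ιa (wr r))⁻¹) '' Rb
  let ye : Fin b → Bool → FreeGroup (Fin a ⊕ Fin b) := fun j ε =>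
    if ε then FreeGroup.of (Sum.inr j) else (FreeGroup.of (Sum.inr j))⁻¹
  have hconjmem : ∀ (j : Fin b) (ε : Bool) (i : Fin a),
      γ (ye j ε) * (α (FreeGroup.of i) : G) * (γ (ye j ε))⁻¹ ∈ f.ker := by
    intro j ε i
    exact (MonoidHom.normal_ker f).conj_mem _ (α (FreeGroup.of i)).2 _
  let v : Fin b → Bool → Fin a → FreeGroup (Fin a) := fun j ε i =>
    αinv ⟨γ (ye j ε) * (α (FreeGroup.of i) : G) * (γ (ye j ε))⁻¹, hconjmem j ε i⟩
  let rel3 : Fin b × Bool × Fin a → FreeGroup (Fin a ⊕ Fin b) := fun p =>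
    ye p.1 p.2.1 * FreeGroup.of (Sum.inl p.2.2) * (ye p.1 p.2.1)⁻¹ * (ιa (v p.1 p.2.1 p.2.2))⁻¹
  let R3 : Set (FreeGroup (Fin a ⊕ Fin b)) := Set.range rel3
  let R : Set (FreeGroup (Fin a ⊕ Fin b)) := R1 ∪ R2 ∪ R3
  have hRfin : R.Finite :=
    ((hRafin.image _).union (hRbfin.image _)).union (Set.finite_range _)
  have hγR : ∀ r ∈ R, FreeGroup.lift gen r = 1 := by
    intro r hr
    change γ r = 1
    rcases hr with (hr | hr) | hr
    · obtain ⟨r0, hr0, rfl⟩ := hr
      rw [hγa, hRaker r0 hr0]
      rfl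
    · obtain ⟨r0, hr0, rfl⟩ := hr
      have hmem : γ (ιb r0) ∈ f.ker := by
        rw [MonoidHom.mem_ker, hγb, hRbker r0 hr0]
      have hw : wr r0 = αinv ⟨γ (ιb r0), hmem⟩ := dif_pos hmem
      rw [map_mul, map_inv, hγa, hw, hαinv]
      simp
    · obtain ⟨⟨j, ε, i⟩, rfl⟩ := hr
      simp only [rel3, v, map_mul, map_inv, hγa, hαinv]
      have : γ (FreeGroup.of (Sum.inl i)) = (α (FreeGroup.of i) : G) := by
        simp [γ, gen]
      rw [this]
      simp
  let P := PresentedGroup R
  let mk : FreeGroup (Fin a ⊕ Fin b) →* P := PresentedGroup.mk R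
  let γbar : P →* G := PresentedGroup.toGroup hγR
  have hγbar : ∀ w, γbar (mk w) = γ w := fun w => rfl
  have hmkR : ∀ r ∈ R, mk r = 1 := fun r hr => PresentedGroup.one_of_mem hr
  let A : Subgroup P := (mk.comp ιa).range
  -- conjugation by the generators `y_j^{±1}` preserves `A`
  have hconjA : ∀ (j : Fin b) (ε : Bool), ∀ x ∈ A, mk (ye j ε) * x * (mk (ye j ε))⁻¹ ∈ A := by
    intro j ε x hx
    obtain ⟨u, rfl⟩ := hx
    let c : FreeGroup (Fin a) →* P :=
      (MulAut.conj (mk (ye j ε))).toMonoidHom.comp (mk.comp ιa)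
    have hc : A.comap c = ⊤ := by
      rw [eq_top_iff, ← FreeGroup.closure_range_of, Subgroup.closure_le]
      rintro _ ⟨i, rfl⟩
      change c (FreeGroup.of i) ∈ A
      have h3 : mk (rel3 (j, ε, i)) = 1 := hmkR _ (Or.inr ⟨(j, ε, i), rfl⟩)
      simp only [rel3, map_mul, map_inv] at h3
      have h4 : c (FreeGroup.of i) = mk (ιa (v j ε i)) := by
        simp only [c, MonoidHom.comp_apply, MulEquiv.coe_toMonoidHom, MulAut.conj_apply]
        have : ιa (FreeGroup.of i) = FreeGroup.of (Sum.inl i) := by simp [ιa]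
        rw [this]
        exact mul_inv_eq_one.mp h3
      rw [h4]
      exact ⟨v j ε i, rfl⟩
    have : u ∈ A.comap c := by rw [hc]; exact Subgroup.mem_top _
    simpa [c] using this
  have hAnormal : A.Normal := by
    refine ⟨fun n hn g => ?_⟩
    induction g using PresentedGroup.induction_on with
    | H z =>
      revert n
      induction z using FreeGroup.induction_on with
      | C1 => intro n hn; simpa using hn
      | of x =>
        intro n hn
        rcases x with i | j
        · have hi : mk (FreeGroup.of (Sum.inl i)) ∈ A := ⟨FreeGroup.of i, by simp [ιa]⟩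
          exact A.mul_mem (A.mul_mem hi hn) (A.inv_mem hi)
        · have := hconjA j true n hn
          simpa [ye] using this
      | inv_of x ih =>
        intro n hn
        rcases x with i | j
        · have hi : mk (FreeGroup.of (Sum.inl i)) ∈ A := ⟨FreeGroup.of i, by simp [ιa]⟩
          have hi' : mk (FreeGroup.of (Sum.inl i))⁻¹ ∈ A := by
            rw [map_inv]; exact A.inv_mem hi
          exact A.mul_mem (A.mul_mem hi' hn) (A.inv_mem hi')
        · have := hconjA j false n hn
          simpa [ye] using this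
      | mul x y hx hy =>
        intro n hn
        have h1 := hx _ (hy n hn)
        simpa [mul_assoc] using h1
  let π : FreeGroup (Fin a ⊕ Fin b) →* FreeGroup (Fin b) :=
    FreeGroup.lift (Sum.elim (fun _ => 1) FreeGroup.of)
  have hc4 : ∀ w, β (π w) = f (γ w) := by
    intro w
    have h : β.comp π = f.comp γ := by
      apply FreeGroup.ext_hom
      intro x
      rcases x with i | j
      · have : (α (FreeGroup.of i) : G) ∈ f.ker := (α (FreeGroup.of i)).2
        simp [π, γ, gen, MonoidHom.mem_ker.1 this]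
      · simp [π, γ, gen, hylift]
    exact DFunLike.congr_fun h w
  have hc1 : ∀ u ∈ Subgroup.normalClosure Rb, mk (ιb u) ∈ A := by
    have hle : Subgroup.normalClosure Rb ≤ A.comap (mk.comp ιb) := by
      have := hAnormal
      apply Subgroup.normalClosure_le_normal
      intro r hr
      change mk (ιb r) ∈ A
      have h2 : mk (ιb r * (ιa (wr r))⁻¹) = 1 := hmkR _ (Or.inl (Or.inr ⟨r, hr, rfl⟩))
      rw [map_mul, map_inv] at h2
      rw [mul_inv_eq_one.mp h2]
      exact ⟨wr r, rfl⟩
    intro u hu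
    exact hle hu
  have hc2 : ∀ w, mk w * (mk (ιb (π w)))⁻¹ ∈ A := by
    have := hAnormal
    intro w
    have h : (QuotientGroup.mk' A).comp mk = (QuotientGroup.mk' A).comp (mk.comp (ιb.comp π)) := by
      apply FreeGroup.ext_hom
      intro x
      rcases x with i | j
      · have hi : mk (FreeGroup.of (Sum.inl i)) ∈ A := ⟨FreeGroup.of i, by simp [ιa]⟩
        simp [π, (QuotientGroup.eq_one_iff _).2 hi]
      · simp [π, ιb]
    have h2 := DFunLike.congr_fun h w
    simp only [MonoidHom.comp_apply, QuotientGroup.mk'_apply] at h2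
    have h3 := QuotientGroup.eq.mp h2.symm
    have h5 : mk w * (mk (ιb (π w)))⁻¹ =
        mk (ιb (π w)) * ((mk (ιb (π w)))⁻¹ * mk w) * (mk (ιb (π w)))⁻¹ := by group
    rw [h5]
    exact hAnormal.conj_mem _ h3 _
  have hc3 : ∀ u ∈ Subgroup.normalClosure Ra, mk (ιa u) = 1 := by
    have hle : Subgroup.normalClosure Ra ≤ (mk.comp ιa).ker := by
      apply Subgroup.normalClosure_le_normal
      intro r hr
      exact MonoidHom.mem_ker.2 (hmkR _ (Or.inl (Or.inl ⟨r, hr, rfl⟩)))
    intro u hu
    exact MonoidHom.mem_ker.1 (hle hu)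
  have hinj : Injective γbar := by
    rw [injective_iff_map_eq_one]
    intro q hq
    obtain ⟨w, rfl⟩ := PresentedGroup.mk_surjective R q
    change γbar (mk w) = 1 at hq
    rw [hγbar] at hq
    have h1 : π w ∈ Subgroup.normalClosure Rb := by
      rw [hRb, MonoidHom.mem_ker, hc4, hq, map_one]
    have h2 : mk (ιb (π w)) ∈ A := hc1 _ h1
    have h3 : mk w ∈ A := by
      have := A.mul_mem (hc2 w) h2
      simpa using this
    obtain ⟨u, hu⟩ := h3
    change mk (ιa u) = mk w at hu
    have h4 : γ (ιa u) = 1 := by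
      rw [← hγbar, hu, hγbar, hq]
    rw [hγa] at h4
    have h5 : α u = 1 := Subtype.ext h4
    have h6 : u ∈ Subgroup.normalClosure Ra := by
      rw [hRa]; exact MonoidHom.mem_ker.2 h5
    change mk w = 1
    rw [← hu]
    exact hc3 u h6
  have hsurj : Surjective γbar := by
    intro g
    obtain ⟨u, hu⟩ := hβ (f g)
    have hmem : g * (γ (ιb u))⁻¹ ∈ f.ker := by
      rw [MonoidHom.mem_ker, map_mul, map_inv, hγb, hu, mul_inv_cancel]
    obtain ⟨v0, hv0⟩ := hα ⟨g * (γ (ιb u))⁻¹, hmem⟩
    refine ⟨mk (ιa v0 * ιb u), ?_⟩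
    rw [hγbar, map_mul, hγa, hv0]
    simp
  have hRfin' : Finite R := hRfin.to_subtype
  have hP : Group.IsFinitelyPresented P := inferInstance
  exact Group.IsFinitelyPresented.equiv (MulEquiv.ofBijective γbar ⟨hinj, hsurj⟩)

end Vale.Agent.Lib.P192
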