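import Mathlib

namespace Vale.Agent.Lib.P192

open Function

/-- If a free group on `α` is finitely generated then `α` is finite. -/
theorem finite_of_fg_freeGroup {α : Type*} (h : Group.FG (FreeGroup α)) : Finite α := by
  classical
  obtain ⟨S, hS, hSfin⟩ := Group.fg_iff.mp h
  let A : Set α := ⋃ w ∈ S, {a | a ∈ (FreeGroup.toWord w).map Prod.fst}
  have hAfin : A.Finite := by
    refine Set.Finite.biUnion hSfin ?_
    intro w _
    exact List.finite_toSet _
  have hA : ∀ b : α, b ∈ A := by
    intro b
    by_contra hb
    let ψ : FreeGroup α →* Multiplicative ℤ :=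
      FreeGroup.lift (fun a => if a = b then Multiplicative.ofAdd 1 else 1)
    have hψ : ∀ w ∈ S, ψ w = 1 := by
      intro w hw
      rw [← FreeGroup.mk_toWord (x := w)]
      simp only [ψ, FreeGroup.lift_mk]
      apply List.prod_eq_one
      intro x hx
      obtain ⟨y, hy, rfl⟩ := List.mem_map.mp hx
      have hyb : y.1 ≠ b := by
        intro hyb
        apply hb
        simp only [A, Set.mem_iUnion, Set.mem_setOf_eq]
        exact ⟨w, hw, List.mem_map.mpr ⟨y, hy, hyb⟩⟩
      cases y.2 <;> simp [hyb]
    have hle : Subgroup.closure S ≤ ψ.ker :=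
      (Subgroup.closure_le _).2 (fun w hw => MonoidHom.mem_ker.2 (hψ w hw))
    rw [hS] at hle
    have h1 : ψ (FreeGroup.of b) = 1 := MonoidHom.mem_ker.1 (hle (Subgroup.mem_top _))
    simp [ψ] at h1
  have huniv : (Set.univ : Set α).Finite := hAfin.subset (fun b _ => hA b)
  exact Set.finite_univ_iff.mp huniv

/-- Reidemeister-Schreier, qualitative form: a subgroup of finite index in a finitely
presented group is finitely presented. -/
theorem isFinitelyPresented_of_finiteIndex {G : Type*} [Group G] [Group.IsFinitelyPresented G]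
    (H : Subgroup G) [H.FiniteIndex] : Group.IsFinitelyPresented H := by
  classical
  obtain ⟨n, φ, hφ, S, hSfin, hS⟩ := (inferInstance : Group.IsFinitelyPresented G).out
  let E : Subgroup (FreeGroup (Fin n)) := H.comap φ
  have hEfi : E.FiniteIndex :=
    ⟨by rw [Subgroup.index_comap_of_surjective H hφ]; exact Subgroup.FiniteIndex.index_ne_zero⟩
  have hEfg : Group.FG E := Subgroup.fg_of_index_ne_zero E
  have hEfree : IsFreeGroup E := subgroupIsFreeOfIsFree E
  let e : E ≃* FreeGroup (IsFreeGroup.Generators E) := IsFreeGroup.toFreeGroup E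
  have hfg : Group.FG (FreeGroup (IsFreeGroup.Generators E)) :=
    Group.fg_of_surjective (f := e.toMonoidHom) e.surjective
  have hfin : Finite (IsFreeGroup.Generators E) := finite_of_fg_freeGroup hfg
  let ψ : E →* H := φ.subgroupComap H
  have hψ : Surjective ψ := φ.subgroupComap_surjective_of_surjective H hφ
  -- the kernel of `ψ` is finitely normally generated
  obtain ⟨T, hT, -⟩ := Subgroup.exists_isComplement_right E (1 : FreeGroup (Fin n))
  have hTfin : T.Finite := hT.finite_right
  let S2 : Set (FreeGroup (Fin n)) := (fun p : FreeGroup (Fin n) × FreeGroup (Fin n) =>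
    p.1 * p.2 * p.1⁻¹) '' (T ×ˢ S)
  have hS2fin : S2.Finite := (hTfin.prod hSfin).image _
  let S' : Set E := Subtype.val ⁻¹' S2
  have hS'fin : S'.Finite := hS2fin.preimage Subtype.val_injective.injOn
  have hSker : ∀ s ∈ S, φ s = 1 := by
    intro s hs
    have : s ∈ φ.ker := by rw [← hS]; exact Subgroup.subset_normalClosure hs
    exact MonoidHom.mem_ker.1 this
  have hkerψ : ψ.ker.IsFinitelyNormallyGenerated := by
    refine ⟨S', hS'fin, le_antisymm ?_ ?_⟩
    · apply Subgroup.normalClosure_le_normal
      intro x hx
      obtain ⟨⟨t, s⟩, ⟨-, hs⟩, hx'⟩ := hx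
      rw [SetLike.mem_coe, MonoidHom.mem_ker]
      apply Subtype.ext
      change φ (x : FreeGroup (Fin n)) = 1
      rw [← hx']
      simp [hSker s hs]
    · -- `ker φ` is contained in the image of the normal closure of `S'`
      let M : Subgroup (FreeGroup (Fin n)) := (Subgroup.normalClosure S').map E.subtype
      have hM : φ.ker ≤ M := by
        rw [← hS]
        change Subgroup.closure (Group.conjugatesOfSet S) ≤ M
        rw [Subgroup.closure_le]
        intro c hc
        obtain ⟨s, hs, hsc⟩ := Group.mem_conjugatesOfSet_iff.mp hc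
        obtain ⟨f, rfl⟩ := isConj_iff.mp hsc
        obtain ⟨⟨x, t⟩, hxt, -⟩ := hT.existsUnique f
        simp only at hxt
        have hmemE : (t : FreeGroup (Fin n)) * s * (t : FreeGroup (Fin n))⁻¹ ∈ E := by
          change φ _ ∈ H
          simp [hSker s hs]
        let y : E := ⟨(t : FreeGroup (Fin n)) * s * (t : FreeGroup (Fin n))⁻¹, hmemE⟩
        have hy : y ∈ S' := by
          change (y : FreeGroup (Fin n)) ∈ S2
          exact ⟨((t : FreeGroup (Fin n)), s), ⟨t.2, hs⟩, rfl⟩
        have hy' : y ∈ Subgroup.normalClosure S' := Subgroup.subset_normalClosure hy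
        have hconj : x * y * x⁻¹ ∈ Subgroup.normalClosure S' :=
          Subgroup.normalClosure_normal.conj_mem y hy' x
        refine ⟨x * y * x⁻¹, hconj, ?_⟩
        rw [← hxt]
        simp [y, mul_assoc]
      intro x hx
      have hx1 : (x : FreeGroup (Fin n)) ∈ φ.ker := by
        rw [MonoidHom.mem_ker]
        have := MonoidHom.mem_ker.1 hx
        exact congrArg Subtype.val this
      obtain ⟨y, hy, hyx⟩ := hM hx1
      have : y = x := Subtype.ext hyx
      rw [← this]
      exact hy
  -- transport along the isomorphism with a free group of finite rank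
  let θ : FreeGroup (IsFreeGroup.Generators E) →* H := ψ.comp e.symm.toMonoidHom
  have hθ : Surjective θ := hψ.comp e.symm.surjective
  have hkerθ : θ.ker.IsFinitelyNormallyGenerated := by
    have h1 : θ.ker = ψ.ker.map e.toMonoidHom := by
      change (ψ.comp e.symm.toMonoidHom).ker = _
      rw [← MonoidHom.comap_ker]
      exact (Subgroup.map_equiv_eq_comap_symm e ψ.ker).symm
    rw [h1]
    exact hkerψ.map e.surjective
  exact Group.IsFinitelyPresented.of_surjective θ hθ hkerθ

end Vale.Agent.Lib.P192
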