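import Mathlib
import Vale.Agent.Lib.P192.FiniteIndex
import Vale.Agent.Lib.P192.Extension

namespace Vale.Agent.Lib.P192

open Function

/-- A direct product of two finitely presented groups is finitely presented. -/
theorem isFinitelyPresented_prod {G H : Type*} [Group G] [Group H]
    (hG : Group.IsFinitelyPresented G) (hH : Group.IsFinitelyPresented H) :
    Group.IsFinitelyPresented (G × H) := by
  refine isFinitelyPresented_of_extension (MonoidHom.snd G H) Prod.snd_surjective ?_ hH
  let e : G ≃* (MonoidHom.snd G H).ker :=
    { toFun := fun g => ⟨(g, 1), MonoidHom.mem_ker.mpr rfl⟩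
      invFun := fun x => x.1.1
      left_inv := fun g => rfl
      right_inv := by
        rintro ⟨⟨a, b⟩, hx⟩
        have hb : b = 1 := MonoidHom.mem_ker.mp hx
        subst hb
        rfl
      map_mul' := by
        intro a b
        apply Subtype.ext
        simp }
  exact Group.IsFinitelyPresented.equiv e

/-- A finite power of a finitely presented group is finitely presented. -/
theorem isFinitelyPresented_pi (G : Type*) [Group G] (hG : Group.IsFinitelyPresented G)
    (α : Type*) [Finite α] : Group.IsFinitelyPresented (α → G) := by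
  have key : ∀ n : ℕ, Group.IsFinitelyPresented (Fin n → G) := by
    intro n
    induction n with
    | zero => infer_instance
    | succ n ih =>
      have h1 : Group.IsFinitelyPresented (G × (Fin n → G)) := isFinitelyPresented_prod hG ih
      let e : (G × (Fin n → G)) ≃* (Fin (n + 1) → G) :=
        { (Fin.consEquiv (fun _ : Fin (n + 1) => G)) with
          map_mul' := by
            intro a b
            funext i
            refine Fin.cases ?_ ?_ i
            · simp [Fin.consEquiv]
            · intro j
              simp [Fin.consEquiv] }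
      exact Group.IsFinitelyPresented.equiv e
  have h2 := key (Nat.card α)
  exact Group.IsFinitelyPresented.equiv
    (MulEquiv.arrowCongr (Finite.equivFin α).symm (MulEquiv.refl G))

/-- A finite power of a periodic group is periodic. -/
theorem isMulTorsion_pi {α G : Type*} [Finite α] [Group G] (h : IsMulTorsion G) :
    IsMulTorsion (α → G) := by
  classical
  have := Fintype.ofFinite α
  intro f
  rw [isOfFinOrder_iff_pow_eq_one]
  refine ⟨∏ z : α, orderOf (f z), ?_, ?_⟩
  · exact Finset.prod_pos fun z _ => (h (f z)).orderOf_pos
  · funext z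
    simp only [Pi.pow_apply, Pi.one_apply]
    exact orderOf_dvd_iff_pow_eq_one.mp (Finset.dvd_prod_of_mem _ (Finset.mem_univ z))

section Wreath

variable {G : Type*} [Group G] {Ω : Type*} {T : Type*} [Group T] [MulAction T Ω]

/-- The permutational wreath product of `G` by `T` acting on `Ω`. -/
abbrev Wr (G : Type*) (Ω : Type*) (T : Type*) [Group G] [Group T] [MulAction T Ω] : Type _ :=
  (Ω → G) ⋊[(mulAutArrow : T →* MulAut (Ω → G))] T

theorem wr_isFinitelyPresented [Finite Ω] [Finite T] (hG : Group.IsFinitelyPresented G) :
    Group.IsFinitelyPresented (Wr G Ω T) := by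
  refine isFinitelyPresented_of_extension
    (SemidirectProduct.rightHom : Wr G Ω T →* T) SemidirectProduct.rightHom_surjective ?_
    inferInstance
  rw [← SemidirectProduct.range_inl_eq_ker_rightHom]
  have := isFinitelyPresented_pi G hG Ω
  exact Group.IsFinitelyPresented.equiv (MonoidHom.ofInjective SemidirectProduct.inl_injective)

theorem wr_isMulTorsion [Finite Ω] [Finite T] (hG : IsMulTorsion G) :
    IsMulTorsion (Wr G Ω T) := by
  refine IsMulTorsion.extension_closed (f := (SemidirectProduct.rightHom : Wr G Ω T →* T))
    (N := (SemidirectProduct.inl : (Ω → G) →* Wr G Ω T).range)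
    SemidirectProduct.range_inl_eq_ker_rightHom isMulTorsion_of_finite ?_
  rintro ⟨_, f, rfl⟩
  have h1 : IsOfFinOrder f := isMulTorsion_pi (α := Ω) hG f
  exact Submonoid.isOfFinOrder_coe.1
    (MonoidHom.isOfFinOrder (SemidirectProduct.inl : (Ω → G) →* Wr G Ω T) h1)

theorem wr_infinite [Nonempty Ω] [Infinite G] : Infinite (Wr G Ω T) := by
  classical
  obtain ⟨z⟩ := ‹Nonempty Ω›
  exact Infinite.of_injective
    (fun c : G => (SemidirectProduct.inl (Pi.mulSingle z c) : Wr G Ω T))
    (fun a b h => Pi.mulSingle_injective z (SemidirectProduct.inl_injective h))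

/-- A subgroup of the wreath product containing all functions supported at one point with value
in a fixed normal subgroup of finite index has finite index. -/
theorem wr_finiteIndex_of_mulSingle_mem [Finite Ω] [Finite T] [DecidableEq Ω]
    (K : Subgroup (Wr G Ω T)) (L : Subgroup G) [L.Normal] [L.FiniteIndex]
    (h : ∀ (z : Ω) (c : G), c ∈ L →
      (SemidirectProduct.inl (Pi.mulSingle z c) : Wr G Ω T) ∈ K) :
    K.FiniteIndex := by
  let q : (Ω → G) →* (Ω → G ⧸ L) := MonoidHom.compLeft (QuotientGroup.mk' L) Ω
  have hfinq : Finite (G ⧸ L) := Subgroup.finite_quotient_of_finiteIndex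
  have hker : q.ker.FiniteIndex := Subgroup.finiteIndex_ker q
  have hB : (q.ker.map (SemidirectProduct.inl : (Ω → G) →* Wr G Ω T)).FiniteIndex := by
    constructor
    rw [q.ker.index_map_of_injective SemidirectProduct.inl_injective,
      SemidirectProduct.range_inl_eq_ker_rightHom,
      Subgroup.index_ker (SemidirectProduct.rightHom : Wr G Ω T →* T)]
    exact mul_ne_zero Subgroup.FiniteIndex.index_ne_zero Nat.card_pos.ne'
  refine Subgroup.finiteIndex_of_le
    (H := q.ker.map (SemidirectProduct.inl : (Ω → G) →* Wr G Ω T)) ?_
  rw [Subgroup.map_le_iff_le_comap]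
  intro f hf
  have hfz : ∀ z, f z ∈ L := fun z => by
    have h1 := congrFun (MonoidHom.mem_ker.mp hf) z
    exact (QuotientGroup.eq_one_iff _).mp h1
  exact Subgroup.pi_mem_of_mulSingle_mem
    (H := K.comap (SemidirectProduct.inl : (Ω → G) →* Wr G Ω T)) f
    (fun z => h z (f z) (hfz z))

end Wreath

end Vale.Agent.Lib.P192
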