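import Mathlib
import Vale.Agent.Lib.P192.Wreath

namespace Vale.Agent.Lib.P192

open Function
open scoped commutatorElement

/-- The powers of three form a Sidon set. -/
theorem pow3_sidon {a s b r : ℕ} (h : 3 ^ a + 3 ^ s = 3 ^ b + 3 ^ r) : a = b ∨ a = r := by
  have key : ∀ u v : ℕ, u < v → 3 * 3 ^ u ≤ 3 ^ v := by
    intro u v huv
    calc 3 * 3 ^ u = 3 ^ (u + 1) := by ring
      _ ≤ 3 ^ v := Nat.pow_le_pow_right (by norm_num) huv
  have pos : ∀ u : ℕ, 0 < 3 ^ u := fun u => by positivity
  by_contra hcon
  push Not at hcon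
  obtain ⟨hab, har⟩ := hcon
  have h1 : 3 * 3 ^ a ≤ 3 ^ b ∨ 3 * 3 ^ b ≤ 3 ^ a := by
    rcases Nat.lt_or_gt_of_ne hab with h | h
    · exact Or.inl (key _ _ h)
    · exact Or.inr (key _ _ h)
  have h2 : 3 * 3 ^ a ≤ 3 ^ r ∨ 3 * 3 ^ r ≤ 3 ^ a := by
    rcases Nat.lt_or_gt_of_ne har with h | h
    · exact Or.inl (key _ _ h)
    · exact Or.inr (key _ _ h)
  have h3 : 3 * 3 ^ s ≤ 3 ^ b ∨ 3 * 3 ^ b ≤ 3 ^ s ∨ 3 ^ s = 3 ^ b := by
    rcases Nat.lt_trichotomy s b with h | h | h
    · exact Or.inl (key _ _ h)
    · subst h; exact Or.inr (Or.inr rfl)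
    · exact Or.inr (Or.inl (key _ _ h))
  have h4 : 3 * 3 ^ s ≤ 3 ^ r ∨ 3 * 3 ^ r ≤ 3 ^ s ∨ 3 ^ s = 3 ^ r := by
    rcases Nat.lt_trichotomy s r with h | h | h
    · exact Or.inl (key _ _ h)
    · subst h; exact Or.inr (Or.inr rfl)
    · exact Or.inr (Or.inl (key _ _ h))
  have pa := pos a
  have ps := pos s
  have pb := pos b
  have pr := pos r
  clear key pos hab har
  generalize 3 ^ a = X at *
  generalize 3 ^ s = S at *
  generalize 3 ^ b = B at *
  generalize 3 ^ r = R at *
  omega

/-- Core of the wreath product argument: a shift-invariant subgroup of the base group which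
contains a function carrying the generators on a Sidon set contains every function supported
at one point with value in the commutator subgroup. -/
theorem core {G : Type*} [Group G] {Ω : Type*} [AddCommGroup Ω] [DecidableEq Ω]
    (A : Subgroup (Ω → G)) (hshift : ∀ f ∈ A, ∀ k : Ω, (fun z => f (z - k)) ∈ A)
    {d : ℕ} (P : Fin d → Ω) (hP : Injective P)
    (hS : ∀ a s b r : Fin d, P a + P s = P b + P r → a = b ∨ a = r)
    (x : Fin d → G) (hx : Subgroup.closure (Set.range x) = ⊤)
    (hg : Function.extend P x 1 ∈ A) (z0 : Ω) (c : G) (hc : c ∈ commutator G) :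
    Pi.mulSingle z0 c ∈ A := by
  set g : Ω → G := Function.extend P x 1 with hgdef
  have hgP : ∀ j, g (P j) = x j := fun j => hP.extend_apply x (1 : Ω → G) j
  have hg1 : ∀ z, (¬ ∃ j, P j = z) → g z = 1 := fun z hz => Function.extend_apply' x (1 : Ω → G) z hz
  let u : Fin d → Ω → G := fun r z => g (z - (z0 - P r))
  have hu : ∀ r, u r ∈ A := fun r => hshift g hg (z0 - P r)
  have hu0 : ∀ r, u r z0 = x r := by
    intro r
    simp only [u]
    rw [sub_sub_cancel]
    exact hgP r
  let L : Subgroup G := A.comap (MonoidHom.mulSingle (fun _ : Ω => G) z0)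
  have hLmem : ∀ c, c ∈ L ↔ Pi.mulSingle z0 c ∈ A := fun c => Iff.rfl
  have hcomm : ∀ r s, ⁅x r, x s⁆ ∈ L := by
    intro r s
    by_cases hrs : r = s
    · subst hrs
      rw [commutatorElement_self]
      exact L.one_mem
    · rw [hLmem]
      have h1 : ⁅u r, u s⁆ = Pi.mulSingle z0 ⁅x r, x s⁆ := by
        funext z
        by_cases hz : z = z0
        · subst hz
          simp [commutatorElement_def, hu0]
        · rw [Pi.mulSingle_eq_of_ne hz]
          simp only [commutatorElement_def, Pi.mul_apply, Pi.inv_apply]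
          by_cases h1 : ∃ a, P a = z - (z0 - P r)
          · by_cases h2 : ∃ b, P b = z - (z0 - P s)
            · exfalso
              obtain ⟨a, ha⟩ := h1
              obtain ⟨b, hb⟩ := h2
              have hsum : P a + P s = P b + P r := by
                rw [ha, hb]; abel
              rcases hS a s b r hsum with hab | har
              · subst hab
                exact hrs (hP (add_left_cancel hsum)).symm
              · subst har
                apply hz
                have h3 : z - z0 = 0 := by
                  have h4 : P a + (z - z0) = P a := by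
                    nth_rewrite 2 [ha]
                    abel
                  simpa using h4
                exact sub_eq_zero.mp h3
            · have h3 : u s z = 1 := hg1 _ h2
              simp [h3]
          · have h3 : u r z = 1 := hg1 _ h1
            simp [h3]
      rw [← h1, commutatorElement_def]
      exact A.mul_mem (A.mul_mem (A.mul_mem (hu r) (hu s)) (A.inv_mem (hu r))) (A.inv_mem (hu s))
  have hconj : ∀ r, ∀ c ∈ L, x r * c * (x r)⁻¹ ∈ L ∧ (x r)⁻¹ * c * x r ∈ L := by
    intro r c hc
    constructor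
    · rw [hLmem]
      have h1 : u r * Pi.mulSingle z0 c * (u r)⁻¹ = Pi.mulSingle z0 (x r * c * (x r)⁻¹) := by
        funext z
        by_cases hz : z = z0
        · subst hz; simp [hu0]
        · simp [Pi.mulSingle_eq_of_ne hz]
      rw [← h1]
      exact A.mul_mem (A.mul_mem (hu r) hc) (A.inv_mem (hu r))
    · rw [hLmem]
      have h1 : (u r)⁻¹ * Pi.mulSingle z0 c * u r = Pi.mulSingle z0 ((x r)⁻¹ * c * x r) := by
        funext z
        by_cases hz : z = z0
        · subst hz; simp [hu0]
        · simp [Pi.mulSingle_eq_of_ne hz]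
      rw [← h1]
      exact A.mul_mem (A.mul_mem (A.inv_mem (hu r)) hc) (hu r)
  have hnormal : ∀ y : G, ∀ c ∈ L, y * c * y⁻¹ ∈ L ∧ y⁻¹ * c * y ∈ L := by
    intro y
    have hy : y ∈ Subgroup.closure (Set.range x) := by rw [hx]; trivial
    induction hy using Subgroup.closure_induction with
    | mem y hy => obtain ⟨r, rfl⟩ := hy; exact hconj r
    | one => intro c hc; simpa using hc
    | mul a b _ _ iha ihb =>
      intro c hc
      constructor
      · have := (iha _ (ihb c hc).1).1
        simpa [mul_assoc] using this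
      · have := (ihb _ (iha c hc).2).2
        simpa [mul_assoc] using this
    | inv a _ iha =>
      intro c hc
      constructor
      · simpa using (iha c hc).2
      · simpa using (iha c hc).1
  have hLn : L.Normal := ⟨fun c hc y => (hnormal y c hc).1⟩
  have hle : commutator G ≤ L := by
    rw [commutator_def, Subgroup.commutator_le]
    intro a _ b _
    have c1 : ∀ r s, Commute (QuotientGroup.mk' L (x r)) (QuotientGroup.mk' L (x s)) := by
      intro r s
      rw [← commutatorElement_eq_one_iff_commute, ← map_commutatorElement]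
      exact (QuotientGroup.eq_one_iff _).mpr (hcomm r s)
    have c2 : ∀ (y : G) (s : Fin d),
        Commute (QuotientGroup.mk' L y) (QuotientGroup.mk' L (x s)) := by
      intro y s
      have hy : y ∈ Subgroup.closure (Set.range x) := by rw [hx]; trivial
      induction hy using Subgroup.closure_induction with
      | mem y hy => obtain ⟨r, rfl⟩ := hy; exact c1 r s
      | one => rw [map_one]; exact Commute.one_left _
      | mul a b _ _ iha ihb => rw [map_mul]; exact iha.mul_left ihb
      | inv a _ iha => rw [map_inv]; exact iha.inv_left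
    have c3 : ∀ y w : G, Commute (QuotientGroup.mk' L y) (QuotientGroup.mk' L w) := by
      intro y w
      have hw : w ∈ Subgroup.closure (Set.range x) := by rw [hx]; trivial
      induction hw using Subgroup.closure_induction with
      | mem w hw => obtain ⟨r, rfl⟩ := hw; exact c2 y r
      | one => rw [map_one]; exact Commute.one_right _
      | mul a b _ _ iha ihb => rw [map_mul]; exact iha.mul_right ihb
      | inv a _ iha => rw [map_inv]; exact iha.inv_right
    have h1 : QuotientGroup.mk' L ⁅a, b⁆ = 1 := by
      rw [map_commutatorElement, commutatorElement_eq_one_iff_commute]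
      exact c3 a b
    exact (QuotientGroup.eq_one_iff _).mp h1
  exact (hLmem c).mp (hle hc)

universe u

/-- From an infinite finitely presented periodic group one obtains an infinite finitely
presented periodic group generated by two elements. -/
theorem exists_two_generated {G : Type u} [Group G] (hfp : Group.IsFinitelyPresented G)
    (htor : IsMulTorsion G) (hinf : Infinite G) :
    ∃ (K : Type u) (_ : Group K), Group.IsFinitelyPresented K ∧ IsMulTorsion K ∧ Infinite K ∧
      ∃ a b : K, Subgroup.closure {a, b} = ⊤ := by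
  classical
  obtain ⟨d, φ, hφ, -⟩ := hfp.out
  let x : Fin d → G := fun i => φ (FreeGroup.of i)
  have hx : Subgroup.closure (Set.range x) = ⊤ := by
    have h1 : Subgroup.closure (Set.range (FreeGroup.of : Fin d → FreeGroup (Fin d))) = ⊤ :=
      FreeGroup.closure_range_of _
    have h2 : (Subgroup.closure (Set.range (FreeGroup.of : Fin d → FreeGroup (Fin d)))).map φ
        = ⊤ := by
      rw [h1, ← MonoidHom.range_eq_map, MonoidHom.range_eq_top]
      exact hφ
    rw [MonoidHom.map_closure, ← Set.range_comp] at h2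
    exact h2
  have hFG : Group.FG G := Group.fg_of_surjective hφ
  have hAbsurj : Surjective (Abelianization.of : G →* Abelianization G) :=
    QuotientGroup.mk'_surjective _
  have hAbFG : Group.FG (Abelianization G) := Group.fg_of_surjective hAbsurj
  have hAbfin : Finite (Abelianization G) :=
    CommGroup.finite_of_fg_isMulTorsion _ (htor.of_surjective hAbsurj)
  have hcfi : (commutator G).FiniteIndex := by
    have : Finite (G ⧸ commutator G) := hAbfin
    exact Subgroup.finiteIndex_of_finite_quotient
  obtain ⟨N, hN⟩ : ∃ N : ℕ, N = 3 ^ d := ⟨_, rfl⟩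
  obtain ⟨m, hm⟩ : ∃ m : ℕ, m = 2 * N + 1 := ⟨_, rfl⟩
  have hm0 : NeZero m := ⟨by omega⟩
  let P : Fin d → ZMod m := fun j => ((3 ^ (j : ℕ) : ℕ) : ZMod m)
  have hlt : ∀ j : Fin d, 3 ^ (j : ℕ) ≤ N := fun j => by
    rw [hN]
    exact Nat.pow_le_pow_right (by norm_num) j.2.le
  have hcast : ∀ p q : ℕ, p < m → q < m → ((p : ℕ) : ZMod m) = (q : ZMod m) → p = q := by
    intro p q hp hq h
    have h1 := (ZMod.natCast_eq_natCast_iff' p q m).mp h
    rwa [Nat.mod_eq_of_lt hp, Nat.mod_eq_of_lt hq] at h1
  have hP : Injective P := by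
    intro a b hab
    have h1 : 3 ^ (a : ℕ) = 3 ^ (b : ℕ) :=
      hcast _ _ (by have := hlt a; omega) (by have := hlt b; omega) hab
    exact Fin.ext (Nat.pow_right_injective (by norm_num : 2 ≤ 3) h1)
  have hS : ∀ a s b r : Fin d, P a + P s = P b + P r → a = b ∨ a = r := by
    intro a s b r h
    have h1 : ((3 ^ (a : ℕ) + 3 ^ (s : ℕ) : ℕ) : ZMod m)
        = ((3 ^ (b : ℕ) + 3 ^ (r : ℕ) : ℕ) : ZMod m) := by
      have h' : ((3 ^ (a : ℕ) : ℕ) : ZMod m) + ((3 ^ (s : ℕ) : ℕ) : ZMod m)
          = ((3 ^ (b : ℕ) : ℕ) : ZMod m) + ((3 ^ (r : ℕ) : ℕ) : ZMod m) := h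
      rw [Nat.cast_add, Nat.cast_add]
      exact h'
    have h2 := hcast _ _ (by have := hlt a; have := hlt s; omega)
      (by have := hlt b; have := hlt r; omega) h1
    rcases pow3_sidon h2 with h3 | h3
    · exact Or.inl (Fin.ext h3)
    · exact Or.inr (Fin.ext h3)
  let W := Wr G (ZMod m) (Equiv.Perm (ZMod m))
  let g : ZMod m → G := Function.extend P x 1
  let a0 : W := SemidirectProduct.inl g
  let t0 : W := SemidirectProduct.inr (Equiv.addRight (1 : ZMod m))
  let K : Subgroup W := Subgroup.closure {a0, t0}
  have ha0 : a0 ∈ K := Subgroup.subset_closure (by simp)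
  have ht0 : t0 ∈ K := Subgroup.subset_closure (by simp)
  have hshiftK : ∀ n : ℕ,
      (SemidirectProduct.inr (Equiv.addRight ((n : ℕ) : ZMod m)) : W) ∈ K := by
    intro n
    induction n with
    | zero =>
      have h1 : (Equiv.addRight ((0 : ℕ) : ZMod m)) = 1 := by ext z; simp
      rw [h1, map_one]
      exact K.one_mem
    | succ n ih =>
      have h1 : (Equiv.addRight (((n + 1 : ℕ)) : ZMod m))
          = Equiv.addRight ((n : ℕ) : ZMod m) * Equiv.addRight (1 : ZMod m) := by
        ext z
        change z + ((n + 1 : ℕ) : ZMod m) = (z + 1) + (n : ZMod m)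
        push_cast
        ring
      rw [h1, map_mul]
      exact K.mul_mem ih ht0
  have hshiftK' : ∀ k : ZMod m, (SemidirectProduct.inr (Equiv.addRight k) : W) ∈ K := by
    intro k
    have h1 := hshiftK k.val
    rwa [ZMod.natCast_zmod_val] at h1
  let A : Subgroup (ZMod m → G) := K.comap (SemidirectProduct.inl : (ZMod m → G) →* W)
  have hA : ∀ f ∈ A, ∀ k : ZMod m, (fun z => f (z - k)) ∈ A := by
    intro f hf k
    change (SemidirectProduct.inl (fun z => f (z - k)) : W) ∈ K
    have h1 : (SemidirectProduct.inl (fun z => f (z - k)) : W)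
        = SemidirectProduct.inr (Equiv.addRight k) * SemidirectProduct.inl f
          * SemidirectProduct.inr (Equiv.addRight k)⁻¹ := by
      rw [← SemidirectProduct.inl_aut]
      congr 1
      funext z
      change f (z - k) = f ((Equiv.addRight k)⁻¹ • z)
      simp [sub_eq_add_neg]
    rw [h1]
    refine K.mul_mem (K.mul_mem (hshiftK' k) hf) ?_
    rw [map_inv]
    exact K.inv_mem (hshiftK' k)
  have hgA : Function.extend P x 1 ∈ A := ha0
  have hKfi : K.FiniteIndex := wr_finiteIndex_of_mulSingle_mem K (commutator G)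
    (fun z c hc => core A hA P hP hS x hx hgA z c hc)
  have hWfp : Group.IsFinitelyPresented W := wr_isFinitelyPresented hfp
  have hWinf : Infinite W := wr_infinite
  refine ⟨K, inferInstance, isFinitelyPresented_of_finiteIndex K,
    (wr_isMulTorsion htor).subgroup K, ?_, ⟨a0, ha0⟩, ⟨t0, ht0⟩, ?_⟩
  · by_contra hfin
    rw [not_infinite_iff_finite] at hfin
    have h1 : K.index * Nat.card K = Nat.card W := K.index_mul_card
    have h2 : Nat.card W ≠ 0 := by
      rw [← h1]
      exact mul_ne_zero Subgroup.FiniteIndex.index_ne_zero Nat.card_pos.ne'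
    exact h2 Nat.card_eq_zero_of_infinite
  · have h := Subgroup.closure_closure_coe_preimage (k := ({a0, t0} : Set W))
    have h1 : (Subtype.val ⁻¹' ({a0, t0} : Set W) : Set K) = {⟨a0, ha0⟩, ⟨t0, ht0⟩} := by
      ext y
      simp [Subtype.ext_iff]
    rw [h1] at h
    exact h

end Vale.Agent.Lib.P192
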