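import Mathlib
import Vale.Agent.Lib.P192.TwoGen

namespace Vale.Agent.Lib.P192

open Function
open scoped commutatorElement

universe u

/-- If a generating set consists of elements commuting with `c`, then `c` commutes with
everything. -/
theorem commute_all_of_closure {Q : Type*} [Group Q] (S : Set Q)
    (hS : Subgroup.closure S = ⊤) (c : Q) (hc : ∀ a ∈ S, Commute a c) (y : Q) : Commute y c := by
  have hy : y ∈ Subgroup.closure S := by rw [hS]; trivial
  induction hy using Subgroup.closure_induction with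
  | mem y hy => exact hc y hy
  | one => exact Commute.one_left _
  | mul a b _ _ iha ihb => exact iha.mul_left ihb
  | inv a _ iha => exact iha.inv_left

/-- A group generated by pairwise commuting elements is commutative. -/
theorem commute_of_closure {Q : Type*} [Group Q] (S : Set Q)
    (hS : Subgroup.closure S = ⊤) (hc : ∀ a ∈ S, ∀ b ∈ S, Commute a b) (y w : Q) :
    Commute y w := by
  have h1 : ∀ b ∈ S, ∀ y : Q, Commute y b := fun b hb y =>
    commute_all_of_closure S hS b (fun a ha => hc a ha b hb) y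
  exact (commute_all_of_closure S hS y (fun a ha => (h1 a ha y).symm) w).symm

theorem finite_of_finite_subgroup_quot {Q : Type*} [Group Q] (Z : Subgroup Q) [Finite Z]
    (h : Finite (Q ⧸ Z)) : Finite Q := by
  have h1 : Z.index * Nat.card Z = Nat.card Q := Z.index_mul_card
  have h2 : Z.index ≠ 0 := by
    rw [Subgroup.index_eq_card]
    exact Nat.card_pos.ne'
  have h3 : Nat.card Z ≠ 0 := Nat.card_pos.ne'
  exact Nat.finite_of_card_ne_zero (by rw [← h1]; exact mul_ne_zero h2 h3)

/-- A periodic group generated by two elements whose commutator is central is finite. -/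
theorem finite_of_central_commutator {Q : Type*} [Group Q] (htor : IsMulTorsion Q) (a b : Q)
    (hgen : Subgroup.closure {a, b} = ⊤) (ha : Commute a ⁅a, b⁆) (hb : Commute b ⁅a, b⁆) :
    Finite Q := by
  set c : Q := ⁅a, b⁆ with hcdef
  have hcentral : ∀ y : Q, Commute y c := by
    intro y
    refine commute_all_of_closure {a, b} hgen c ?_ y
    intro x hx
    rcases hx with rfl | rfl
    · exact ha
    · exact hb
  let Z : Subgroup Q := Subgroup.zpowers c
  have hZfin : Finite Z := (htor c).finite_zpowers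
  have hZn : Z.Normal := by
    constructor
    intro n hn g
    have h1 : g * n * g⁻¹ = n := by
      obtain ⟨k, rfl⟩ := Subgroup.mem_zpowers_iff.mp hn
      have h2 : Commute g (c ^ k) := (hcentral g).zpow_right k
      rw [h2.eq, mul_inv_cancel_right]
    rw [h1]
    exact hn
  have hgen' : Subgroup.closure ({QuotientGroup.mk' Z a, QuotientGroup.mk' Z b} : Set (Q ⧸ Z))
      = ⊤ := by
    have h1 : (Subgroup.closure ({a, b} : Set Q)).map (QuotientGroup.mk' Z) = ⊤ := by
      rw [hgen, ← MonoidHom.range_eq_map, MonoidHom.range_eq_top]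
      exact QuotientGroup.mk'_surjective Z
    rw [MonoidHom.map_closure] at h1
    rw [← h1]
    congr 1
    ext y
    simp [Set.image_pair]
  have hab : Commute (QuotientGroup.mk' Z a) (QuotientGroup.mk' Z b) := by
    rw [← commutatorElement_eq_one_iff_commute, ← map_commutatorElement]
    exact (QuotientGroup.eq_one_iff _).mpr (Subgroup.mem_zpowers c)
  have hcomm : ∀ y w : Q ⧸ Z, y * w = w * y := by
    intro y w
    refine (commute_of_closure _ hgen' ?_ y w).eq
    intro x hx z hz
    rcases hx with rfl | rfl <;> rcases hz with rfl | rfl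
    · exact Commute.refl _
    · exact hab
    · exact hab.symm
    · exact Commute.refl _
  let inst : CommGroup (Q ⧸ Z) := { (inferInstance : Group (Q ⧸ Z)) with mul_comm := hcomm }
  have hFG : Group.FG Q := by
    rw [Group.fg_iff]
    exact ⟨{a, b}, hgen, Set.toFinite _⟩
  have hFG' : Group.FG (Q ⧸ Z) := Group.fg_of_surjective (QuotientGroup.mk'_surjective Z)
  have htor' : IsMulTorsion (Q ⧸ Z) := htor.of_surjective (QuotientGroup.mk'_surjective Z)
  have hfin : Finite (Q ⧸ Z) := CommGroup.finite_of_fg_isMulTorsion (Q ⧸ Z) htor'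
  exact finite_of_finite_subgroup_quot Z hfin

/-- A normal subgroup of a two-generated periodic group modulo which the commutator of the
generators is central has finite index. -/
theorem finiteIndex_of_class_two {H : Type*} [Group H] (htor : IsMulTorsion H) (a b : H)
    (hgen : Subgroup.closure {a, b} = ⊤) (L : Subgroup H) [L.Normal]
    (h1 : ⁅a⁻¹, ⁅a, b⁆⁆ ∈ L) (h2 : ⁅b⁻¹, ⁅a, b⁆⁆ ∈ L) : L.FiniteIndex := by
  have hgen' : Subgroup.closure ({QuotientGroup.mk' L a, QuotientGroup.mk' L b} : Set (H ⧸ L))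
      = ⊤ := by
    have h3 : (Subgroup.closure ({a, b} : Set H)).map (QuotientGroup.mk' L) = ⊤ := by
      rw [hgen, ← MonoidHom.range_eq_map, MonoidHom.range_eq_top]
      exact QuotientGroup.mk'_surjective L
    rw [MonoidHom.map_closure] at h3
    rw [← h3]
    congr 1
    ext y
    simp [Set.image_pair]
  have hca : Commute (QuotientGroup.mk' L a) ⁅QuotientGroup.mk' L a, QuotientGroup.mk' L b⁆ := by
    have h3 : Commute (QuotientGroup.mk' L a)⁻¹
        ⁅QuotientGroup.mk' L a, QuotientGroup.mk' L b⁆ := by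
      rw [← commutatorElement_eq_one_iff_commute, ← map_commutatorElement, ← map_inv,
        ← map_commutatorElement]
      exact (QuotientGroup.eq_one_iff _).mpr h1
    simpa using h3.inv_left
  have hcb : Commute (QuotientGroup.mk' L b) ⁅QuotientGroup.mk' L a, QuotientGroup.mk' L b⁆ := by
    have h3 : Commute (QuotientGroup.mk' L b)⁻¹
        ⁅QuotientGroup.mk' L a, QuotientGroup.mk' L b⁆ := by
      rw [← commutatorElement_eq_one_iff_commute, ← map_commutatorElement, ← map_inv,
        ← map_commutatorElement]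
      exact (QuotientGroup.eq_one_iff _).mpr h2
    simpa using h3.inv_left
  have hfin : Finite (H ⧸ L) :=
    finite_of_central_commutator (htor.of_surjective (QuotientGroup.mk'_surjective L))
      _ _ hgen' hca hcb
  exact Subgroup.finiteIndex_of_finite_quotient

/-- Positions of the four nontrivial values on `ZMod 17`. -/
def code17 (z : ZMod 17) : Fin 5 :=
  if z = 1 then 1 else if z = 16 then 2 else if z = 4 then 3 else if z = 13 then 4 else 0

/-- The values `1, a, a⁻¹, b, b⁻¹`. -/
def val17 {G : Type*} [Group G] (a b : G) : Fin 5 → G := ![1, a, a⁻¹, b, b⁻¹]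

/-- The base function: `a` at `1`, `a⁻¹` at `-1`, `b` at `4`, `b⁻¹` at `-4`. -/
def g17 {G : Type*} [Group G] (a b : G) (z : ZMod 17) : G := val17 a b (code17 z)

theorem g17_neg {G : Type*} [Group G] (a b : G) (z : ZMod 17) :
    g17 a b (-z) = (g17 a b z)⁻¹ := by
  have h1 : ∀ z : ZMod 17, code17 (-z) = ![0, 2, 1, 4, 3] (code17 z) := by decide
  have h2 : ∀ i : Fin 5, val17 a b (![0, 2, 1, 4, 3] i) = (val17 a b i)⁻¹ := by
    intro i
    fin_cases i <;> simp [val17]
  unfold g17
  rw [h1, h2]

theorem core2 {G : Type*} [Group G] (A : Subgroup (ZMod 17 → G))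
    (hshift : ∀ f ∈ A, ∀ k : ZMod 17, (fun z => f (z - k)) ∈ A) (a b : G)
    (hgen : Subgroup.closure {a, b} = ⊤) (hg : g17 a b ∈ A) :
    ∃ L : Subgroup G, L.Normal ∧ ⁅a⁻¹, ⁅a, b⁆⁆ ∈ L ∧ ⁅b⁻¹, ⁅a, b⁆⁆ ∈ L ∧
      ∀ (z : ZMod 17) (c : G), c ∈ L → Pi.mulSingle z c ∈ A := by
  let sh : ZMod 17 → ZMod 17 → G := fun k z => g17 a b (z + k)
  have hsh : ∀ k, sh k ∈ A := by
    intro k
    have h1 := hshift (g17 a b) hg (-k)
    have h2 : (fun z => g17 a b (z - -k)) = sh k := by
      funext z
      simp [sh]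
    rwa [h2] at h1
  have hs : ∀ (k z : ZMod 17) (i : Fin 5), code17 (z + k) = i → sh k z = val17 a b i := by
    intro k z i h
    simp only [sh, g17, h]
  have e1 : sh 1 0 = a := by
    rw [hs 1 0 1 (by decide)]; simp [val17]
  have e4 : sh 4 0 = b := by
    rw [hs 4 0 3 (by decide)]; simp [val17]
  have e16 : sh 16 0 = a⁻¹ := by
    rw [hs 16 0 2 (by decide)]; simp [val17]
  have e13 : sh 13 0 = b⁻¹ := by
    rw [hs 13 0 4 (by decide)]; simp [val17]
  have f16 : sh 16 12 = 1 := by
    rw [hs 16 12 0 (by decide)]; simp [val17]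
  have f13 : sh 13 12 = 1 := by
    rw [hs 13 12 0 (by decide)]; simp [val17]
  have hov : ∀ z : ZMod 17, z ≠ 0 → z ≠ 12 → sh 1 z = 1 ∨ sh 4 z = 1 := by
    have h : ∀ z : ZMod 17, z ≠ 0 → z ≠ 12 → code17 (z + 1) = 0 ∨ code17 (z + 4) = 0 := by
      decide
    intro z hz0 hz12
    rcases h z hz0 hz12 with h1 | h1
    · left
      rw [hs 1 z 0 h1]; simp [val17]
    · right
      rw [hs 4 z 0 h1]; simp [val17]
  -- the two-point commutator
  let c0 : ZMod 17 → G := ⁅sh 1, sh 4⁆
  have hc0A : c0 ∈ A := by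
    change sh 1 * sh 4 * (sh 1)⁻¹ * (sh 4)⁻¹ ∈ A
    exact A.mul_mem (A.mul_mem (A.mul_mem (hsh 1) (hsh 4)) (A.inv_mem (hsh 1)))
      (A.inv_mem (hsh 4))
  have hc0_0 : c0 0 = ⁅a, b⁆ := by
    change sh 1 0 * sh 4 0 * (sh 1 0)⁻¹ * (sh 4 0)⁻¹ = _
    rw [e1, e4, commutatorElement_def]
  have hc0_else : ∀ z : ZMod 17, z ≠ 0 → z ≠ 12 → c0 z = 1 := by
    intro z hz0 hz12
    change sh 1 z * sh 4 z * (sh 1 z)⁻¹ * (sh 4 z)⁻¹ = 1
    rcases hov z hz0 hz12 with h | h
    · rw [h]; simp
    · rw [h]; simp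
  let L : Subgroup G := A.comap (MonoidHom.mulSingle (fun _ : ZMod 17 => G) 0)
  have hLmem : ∀ c, c ∈ L ↔ Pi.mulSingle (0 : ZMod 17) c ∈ A := fun c => Iff.rfl
  have h12 : (12 : ZMod 17) ≠ 0 := by decide
  have key : ∀ (k : ZMod 17) (y : G), sh k 0 = y → sh k 12 = 1 → ⁅y, ⁅a, b⁆⁆ ∈ L := by
    intro k y hk0 hk12
    rw [hLmem]
    have h1 : ⁅sh k, c0⁆ = Pi.mulSingle (0 : ZMod 17) ⁅y, ⁅a, b⁆⁆ := by
      funext z
      change sh k z * c0 z * (sh k z)⁻¹ * (c0 z)⁻¹ = _
      by_cases hz0 : z = 0
      · subst hz0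
        rw [hk0, hc0_0, Pi.mulSingle_eq_same]
        exact (commutatorElement_def _ _).symm
      · rw [Pi.mulSingle_eq_of_ne hz0]
        by_cases hz12 : z = 12
        · subst hz12
          rw [hk12]
          simp
        · rw [hc0_else z hz0 hz12]
          simp
    rw [← h1]
    change sh k * c0 * (sh k)⁻¹ * c0⁻¹ ∈ A
    exact A.mul_mem (A.mul_mem (A.mul_mem (hsh k) hc0A) (A.inv_mem (hsh k))) (A.inv_mem hc0A)
  have hconj : ∀ (k : ZMod 17) (y : G), sh k 0 = y →
      ∀ c ∈ L, y * c * y⁻¹ ∈ L ∧ y⁻¹ * c * y ∈ L := by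
    intro k y hk0 c hc
    constructor
    · rw [hLmem]
      have h1 : sh k * Pi.mulSingle (0 : ZMod 17) c * (sh k)⁻¹
          = Pi.mulSingle (0 : ZMod 17) (y * c * y⁻¹) := by
        funext z
        by_cases hz : z = 0
        · subst hz; simp [hk0]
        · simp [Pi.mulSingle_eq_of_ne hz]
      rw [← h1]
      exact A.mul_mem (A.mul_mem (hsh k) hc) (A.inv_mem (hsh k))
    · rw [hLmem]
      have h1 : (sh k)⁻¹ * Pi.mulSingle (0 : ZMod 17) c * sh k
          = Pi.mulSingle (0 : ZMod 17) (y⁻¹ * c * y) := by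
        funext z
        by_cases hz : z = 0
        · subst hz; simp [hk0]
        · simp [Pi.mulSingle_eq_of_ne hz]
      rw [← h1]
      exact A.mul_mem (A.mul_mem (A.inv_mem (hsh k)) hc) (hsh k)
  have hnormal : ∀ y : G, ∀ c ∈ L, y * c * y⁻¹ ∈ L ∧ y⁻¹ * c * y ∈ L := by
    intro y
    have hy : y ∈ Subgroup.closure ({a, b} : Set G) := by rw [hgen]; trivial
    induction hy using Subgroup.closure_induction with
    | mem y hy =>
      rcases hy with rfl | rfl
      · exact hconj 1 _ e1
      · exact hconj 4 _ e4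
    | one => intro c hc; simpa using hc
    | mul x y _ _ iha ihb =>
      intro c hc
      constructor
      · have := (iha _ (ihb c hc).1).1
        simpa [mul_assoc] using this
      · have := (ihb _ (iha c hc).2).2
        simpa [mul_assoc] using this
    | inv x _ iha =>
      intro c hc
      constructor
      · simpa using (iha c hc).2
      · simpa using (iha c hc).1
  refine ⟨L, ⟨fun c hc y => (hnormal y c hc).1⟩, key 16 _ e16 f16, key 13 _ e13 f13, ?_⟩
  intro z c hc
  have h1 := hshift _ ((hLmem c).mp hc) z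
  have h2 : (fun y => (Pi.mulSingle (0 : ZMod 17) c : ZMod 17 → G) (y - z))
      = (Pi.mulSingle z c : ZMod 17 → G) := by
    funext y
    by_cases hy : y = z
    · subst hy; simp
    · rw [Pi.mulSingle_eq_of_ne hy, Pi.mulSingle_eq_of_ne (sub_ne_zero.mpr hy)]
  rwa [h2] at h1

theorem shift_invariant {G : Type*} [Group G] {m : ℕ} [NeZero m]
    (K : Subgroup (Wr G (ZMod m) (Equiv.Perm (ZMod m))))
    (ht : (SemidirectProduct.inr (Equiv.addRight (1 : ZMod m)) :
      Wr G (ZMod m) (Equiv.Perm (ZMod m))) ∈ K) :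
    ∀ f ∈ K.comap
        (SemidirectProduct.inl : (ZMod m → G) →* Wr G (ZMod m) (Equiv.Perm (ZMod m))),
      ∀ k : ZMod m, (fun z => f (z - k)) ∈ K.comap
        (SemidirectProduct.inl : (ZMod m → G) →* Wr G (ZMod m) (Equiv.Perm (ZMod m))) := by
  have hshiftK : ∀ n : ℕ, (SemidirectProduct.inr (Equiv.addRight ((n : ℕ) : ZMod m)) :
      Wr G (ZMod m) (Equiv.Perm (ZMod m))) ∈ K := by
    intro n
    induction n with
    | zero =>
      have h1 : (Equiv.addRight ((0 : ℕ) : ZMod m)) = 1 := by ext z; simp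
      rw [h1, map_one]
      exact K.one_mem
    | succ n ih =>
      have h1 : (Equiv.addRight (((n + 1 : ℕ)) : ZMod m))
          = Equiv.addRight ((n : ℕ) : ZMod m) * Equiv.addRight (1 : ZMod m) := by
        ext z
        change z + ((n + 1 : ℕ) : ZMod m) = (z + 1) + (n : ZMod m)
        push_cast
        ring
      rw [h1, map_mul]
      exact K.mul_mem ih ht
  have hshiftK' : ∀ k : ZMod m, (SemidirectProduct.inr (Equiv.addRight k) :
      Wr G (ZMod m) (Equiv.Perm (ZMod m))) ∈ K := by
    intro k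
    have h1 := hshiftK k.val
    rwa [ZMod.natCast_zmod_val] at h1
  intro f hf k
  change (SemidirectProduct.inl (fun z => f (z - k)) :
    Wr G (ZMod m) (Equiv.Perm (ZMod m))) ∈ K
  have h1 : (SemidirectProduct.inl (fun z => f (z - k)) : Wr G (ZMod m) (Equiv.Perm (ZMod m)))
      = SemidirectProduct.inr (Equiv.addRight k) * SemidirectProduct.inl f
        * SemidirectProduct.inr (Equiv.addRight k)⁻¹ := by
    rw [← SemidirectProduct.inl_aut]
    congr 1
    funext z
    change f (z - k) = f ((Equiv.addRight k)⁻¹ • z)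
    simp [sub_eq_add_neg]
  rw [h1]
  refine K.mul_mem (K.mul_mem (hshiftK' k) hf) ?_
  rw [map_inv]
  exact K.inv_mem (hshiftK' k)

theorem subgroup_props {G : Type u} [Group G] (hfp : Group.IsFinitelyPresented G)
    (htor : IsMulTorsion G) (hinf : Infinite G) {Ω : Type} {T : Type} [Finite Ω] [Nonempty Ω]
    [Group T] [Finite T] [MulAction T Ω] (K : Subgroup (Wr G Ω T)) [K.FiniteIndex] :
    Group.IsFinitelyPresented K ∧ IsMulTorsion K ∧ Infinite K := by
  have hWfp : Group.IsFinitelyPresented (Wr G Ω T) := wr_isFinitelyPresented hfp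
  have hWinf : Infinite (Wr G Ω T) := wr_infinite
  refine ⟨isFinitelyPresented_of_finiteIndex K, (wr_isMulTorsion htor).subgroup K, ?_⟩
  by_contra hfin
  rw [not_infinite_iff_finite] at hfin
  have h1 : K.index * Nat.card K = Nat.card (Wr G Ω T) := K.index_mul_card
  have h2 : Nat.card (Wr G Ω T) ≠ 0 := by
    rw [← h1]
    exact mul_ne_zero Subgroup.FiniteIndex.index_ne_zero Nat.card_pos.ne'
  exact h2 Nat.card_eq_zero_of_infinite

/-- From an infinite finitely presented periodic group generated by two elements one obtains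
an infinite finitely presented periodic group generated by three involutions. -/
theorem exists_three_involutions {H : Type u} [Group H] (hfp : Group.IsFinitelyPresented H)
    (htor : IsMulTorsion H) (hinf : Infinite H) (a b : H)
    (hab : Subgroup.closure {a, b} = ⊤) :
    ∃ (K : Type u) (_ : Group K), Group.IsFinitelyPresented K ∧ IsMulTorsion K ∧ Infinite K ∧
      ∃ x y z : K, x ^ 2 = 1 ∧ y ^ 2 = 1 ∧ z ^ 2 = 1 ∧ Subgroup.closure {x, y, z} = ⊤ := by
  classical
  let W := Wr H (ZMod 17) (Equiv.Perm (ZMod 17))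
  let ρ : Equiv.Perm (ZMod 17) := Equiv.neg (ZMod 17)
  let σ : Equiv.Perm (ZMod 17) := Equiv.subLeft (1 : ZMod 17)
  let g : ZMod 17 → H := g17 a b
  let α : W := ⟨g, ρ⟩
  let β : W := SemidirectProduct.inr ρ
  let γ : W := SemidirectProduct.inr σ
  have hρ : ρ * ρ = 1 := by ext z; simp [ρ]
  have hσ : σ * σ = 1 := by ext z; simp [σ]
  have hα2 : α * α = 1 := by
    apply SemidirectProduct.ext
    · change g * (mulAutArrow ρ g) = 1
      funext z
      change g z * g (ρ⁻¹ • z) = 1
      have h1 : ρ⁻¹ • z = -z := by simp [ρ]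
      rw [h1]
      change g17 a b z * g17 a b (-z) = 1
      rw [g17_neg, mul_inv_cancel]
    · exact hρ
  have hβ2 : β * β = 1 := by
    change (SemidirectProduct.inr ρ : W) * SemidirectProduct.inr ρ = 1
    rw [← map_mul, hρ, map_one]
  have hγ2 : γ * γ = 1 := by
    change (SemidirectProduct.inr σ : W) * SemidirectProduct.inr σ = 1
    rw [← map_mul, hσ, map_one]
  let K : Subgroup W := Subgroup.closure {α, β, γ}
  have hα : α ∈ K := Subgroup.subset_closure (by simp)
  have hβ : β ∈ K := Subgroup.subset_closure (by simp)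
  have hγ : γ ∈ K := Subgroup.subset_closure (by simp)
  have hgK : (SemidirectProduct.inl g : W) ∈ K := by
    have h1 : (SemidirectProduct.inl g : W) = α * β := by
      apply SemidirectProduct.ext
      · change g = g * (mulAutArrow ρ (1 : ZMod 17 → H))
        simp
      · change (1 : Equiv.Perm (ZMod 17)) = ρ * ρ
        exact hρ.symm
    rw [h1]
    exact K.mul_mem hα hβ
  have htK : (SemidirectProduct.inr (Equiv.addRight (1 : ZMod 17)) : W) ∈ K := by
    have h1 : Equiv.addRight (1 : ZMod 17) = σ * ρ := by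
      ext z
      simp [σ, ρ, add_comm]
    rw [h1, map_mul]
    exact K.mul_mem hγ hβ
  obtain ⟨L, hLn, h1, h2, hL⟩ :=
    core2 (K.comap (SemidirectProduct.inl : (ZMod 17 → H) →* W)) (shift_invariant K htK)
      a b hab hgK
  have hLfi : L.FiniteIndex := finiteIndex_of_class_two htor a b hab L h1 h2
  have hKfi : K.FiniteIndex := wr_finiteIndex_of_mulSingle_mem K L (fun z c hc => hL z c hc)
  obtain ⟨p1, p2, p3⟩ := subgroup_props hfp htor hinf K
  refine ⟨K, inferInstance, p1, p2, p3, ⟨α, hα⟩, ⟨β, hβ⟩, ⟨γ, hγ⟩, ?_, ?_, ?_, ?_⟩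
  · apply Subtype.ext
    rw [pow_two]
    exact hα2
  · apply Subtype.ext
    rw [pow_two]
    exact hβ2
  · apply Subtype.ext
    rw [pow_two]
    exact hγ2
  · have h := Subgroup.closure_closure_coe_preimage (k := ({α, β, γ} : Set W))
    have h3 : (Subtype.val ⁻¹' ({α, β, γ} : Set W) : Set K)
        = {⟨α, hα⟩, ⟨β, hβ⟩, ⟨γ, hγ⟩} := by
      ext y
      simp [Subtype.ext_iff]
    rw [h3] at h
    exact h

/-- From an infinite finitely presented periodic group one obtains an infinite finitely
presented periodic group generated by three involutions. -/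
theorem exists_three_involutions_of_exists {G : Type u} [Group G]
    (hfp : Group.IsFinitelyPresented G) (htor : IsMulTorsion G) (hinf : Infinite G) :
    ∃ (K : Type u) (_ : Group K), Group.IsFinitelyPresented K ∧ IsMulTorsion K ∧ Infinite K ∧
      ∃ x y z : K, x ^ 2 = 1 ∧ y ^ 2 = 1 ∧ z ^ 2 = 1 ∧ Subgroup.closure {x, y, z} = ⊤ := by
  obtain ⟨H, _, hfp', htor', hinf', a, b, hab⟩ := exists_two_generated hfp htor hinf
  exact exists_three_involutions hfp' htor' hinf' a b hab

end Vale.Agent.Lib.P192
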